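import Vale.Agent.Lib.P074.Defs

namespace Vale.Agent.Lib.P074

open MeasureTheory Filter Topology

/-- The telescoping identity: `∑ (‖x_{i+1} - x_i‖² + 2 ⟨x_{i+1} - x_i, x_i⟩) = 0` around a
cycle. -/
theorem sum_cyc_zero {d n : ℕ} (x : Fin (n + 1) → E d) :
    ∑ i, (‖x (i + 1) - x i‖ ^ 2 + 2 * inner ℝ (x (i + 1) - x i) (x i)) = 0 := by
  have h : ∀ i, ‖x (i + 1) - x i‖ ^ 2 + 2 * inner ℝ (x (i + 1) - x i) (x i) =
      ‖x (i + 1)‖ ^ 2 - ‖x i‖ ^ 2 := by
    intro i
    rw [norm_sub_sq_real, inner_sub_left, real_inner_self_eq_norm_sq]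
    ring
  simp only [h]
  rw [Finset.sum_sub_distrib, sub_eq_zero]
  exact Equiv.sum_comp (Equiv.addRight (1 : Fin (n + 1))) (fun i => ‖x i‖ ^ 2)

/-- From the swap inequality on small disjoint balls to cyclic monotonicity at Lebesgue points
of `K.indicator S`. -/
theorem cyclic_of_lebesgue {d : ℕ} (K : Set (E d)) (S : E d → E d)
    (hSint : Integrable (K.indicator S) (volume : Measure (E d)))
    (hswap : ∀ (n : ℕ) (x : Fin (n + 1) → E d) (r : ℝ), 0 < r →
      Pairwise (fun i j => Disjoint (Metric.ball (x i) r) (Metric.ball (x j) r)) →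
      (∀ i, Metric.ball (x i) r ⊆ K) →
      0 ≤ ∑ i, ∫ y in Metric.ball (x i) r,
        (‖x (i + 1) - x i‖ ^ 2 + 2 * inner ℝ (x (i + 1) - x i) (y - S y)))
    (n : ℕ) (x : Fin (n + 1) → E d) (hx : Function.Injective x)
    (hxK : ∀ i, x i ∈ interior K)
    (hL : ∀ i, Tendsto (fun r : ℝ => ⨍ y in Metric.closedBall (x i) r,
      ‖K.indicator S y - K.indicator S (x i)‖) (𝓝[>] 0) (𝓝 0)) :
    ∑ i, inner ℝ (S (x i)) (x (i + 1) - x i) ≤ 0 := by
  set c : Fin (n + 1) → ℝ := fun i =>
    ‖x (i + 1) - x i‖ ^ 2 + 2 * inner ℝ (x (i + 1) - x i) (x i - S (x i)) with hc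
  set avg : Fin (n + 1) → ℝ → ℝ := fun i r =>
    ⨍ y in Metric.closedBall (x i) r, ‖K.indicator S y - K.indicator S (x i)‖ with havg
  set err : ℝ → ℝ := fun r => ∑ i, 2 * ‖x (i + 1) - x i‖ * (r + avg i r) with herr
  -- the error tends to zero
  have herr0 : Tendsto err (𝓝[>] 0) (𝓝 0) := by
    have h1 : Tendsto (fun r : ℝ => r) (𝓝[>] 0) (𝓝 0) :=
      tendsto_nhdsWithin_of_tendsto_nhds tendsto_id
    have h2 : Tendsto err (𝓝[>] 0)
        (𝓝 (∑ i : Fin (n + 1), 2 * ‖x (i + 1) - x i‖ * (0 + 0))) := by
      refine tendsto_finsetSum _ fun i _ => ?_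
      exact (h1.add (hL i)).const_mul _
    simpa using h2
  -- eventually the swap inequality is available
  have hev : ∀ᶠ r in 𝓝[>] (0 : ℝ), 0 ≤ ∑ i, c i + err r := by
    have hpos : ∀ᶠ r in 𝓝[>] (0 : ℝ), 0 < r := eventually_mem_nhdsWithin
    have hsub : ∀ᶠ r in 𝓝[>] (0 : ℝ), ∀ i, Metric.ball (x i) r ⊆ K := by
      rw [Filter.eventually_all]
      intro i
      obtain ⟨ε, hε, hεK⟩ := Metric.isOpen_iff.1 isOpen_interior (x i) (hxK i)
      have h1 : ∀ᶠ r in 𝓝[>] (0 : ℝ), r < ε := nhdsWithin_le_nhds (Iio_mem_nhds hε)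
      filter_upwards [h1] with r hr
      exact (Metric.ball_subset_ball hr.le).trans (hεK.trans interior_subset)
    have hdisj : ∀ᶠ r in 𝓝[>] (0 : ℝ),
        Pairwise (fun i j => Disjoint (Metric.ball (x i) r) (Metric.ball (x j) r)) := by
      have h1 : ∀ᶠ r in 𝓝[>] (0 : ℝ), ∀ i j, i ≠ j →
          Disjoint (Metric.ball (x i) r) (Metric.ball (x j) r) := by
        rw [Filter.eventually_all]
        intro i
        rw [Filter.eventually_all]
        intro j
        by_cases hij : i = j
        · exact Eventually.of_forall fun r h => absurd hij h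
        · have hd : 0 < dist (x i) (x j) / 2 := by
            have h3 := dist_pos.2 (fun h => hij (hx h))
            linarith
          have h2 : ∀ᶠ r in 𝓝[>] (0 : ℝ), r < dist (x i) (x j) / 2 :=
            nhdsWithin_le_nhds (Iio_mem_nhds hd)
          filter_upwards [h2] with r hr _
          exact Metric.ball_disjoint_ball (by linarith)
      filter_upwards [h1] with r hr i j hij
      exact hr i j hij
    filter_upwards [hpos, hsub, hdisj] with r hr hsubr hdisjr
    have hsw := hswap n x r hr hdisjr hsubr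
    -- volumes
    set V : ℝ := (volume : Measure (E d)).real (Metric.ball (0 : E d) r) with hV
    have hVpos : 0 < V :=
      ENNReal.toReal_pos (Metric.measure_ball_pos volume _ hr).ne' measure_ball_lt_top.ne
    have hVi : ∀ i, (volume : Measure (E d)).real (Metric.ball (x i) r) = V := by
      intro i
      rw [hV, Measure.real, Measure.real, Measure.addHaar_ball_center]
    have hVc : ∀ i, (volume : Measure (E d)).real (Metric.closedBall (x i) r) = V := by
      intro i
      rw [← hVi i, Measure.real, Measure.real]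
      congr 1
      apply le_antisymm
      · rw [← Metric.ball_union_sphere]
        refine (measure_union_le _ _).trans ?_
        rw [Measure.addHaar_sphere_of_ne_zero volume (x i) hr.ne', add_zero]
      · exact measure_mono Metric.ball_subset_closedBall
    -- per-index bound
    have hbound : ∀ i, ∫ y in Metric.ball (x i) r,
        (‖x (i + 1) - x i‖ ^ 2 + 2 * inner ℝ (x (i + 1) - x i) (y - S y)) ≤
        V * (c i + 2 * ‖x (i + 1) - x i‖ * (r + avg i r)) := by
      intro i
      have hxi : x i ∈ K := interior_subset (hxK i)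
      have hfinB : (volume : Measure (E d)) (Metric.ball (x i) r) ≠ ⊤ := measure_ball_lt_top.ne
      have hfinC : (volume : Measure (E d)) (Metric.closedBall (x i) r) ≠ ⊤ :=
        measure_closedBall_lt_top.ne
      -- integrability
      have hgC : IntegrableOn (fun y => ‖K.indicator S y - K.indicator S (x i)‖)
          (Metric.closedBall (x i) r) volume :=
        ((hSint.integrableOn).sub (integrableOn_const hfinC)).norm
      have hgB : IntegrableOn (fun y => ‖K.indicator S y - K.indicator S (x i)‖)
          (Metric.ball (x i) r) volume := hgC.mono_set Metric.ball_subset_closedBall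
      have hid : IntegrableOn (fun y : E d => y) (Metric.ball (x i) r) volume :=
        (continuous_id.continuousOn.integrableOn_compact
          (isCompact_closedBall (x i) r)).mono_set Metric.ball_subset_closedBall
      have hψ : IntegrableOn (fun y : E d =>
          (y - x i) - (K.indicator S y - K.indicator S (x i))) (Metric.ball (x i) r) volume :=
        (hid.sub (integrableOn_const hfinB)).sub
          ((hSint.integrableOn).sub (integrableOn_const hfinB))
      have hF1 : IntegrableOn (fun y : E d => c i + 2 * inner ℝ (x (i + 1) - x i)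
          ((y - x i) - (K.indicator S y - K.indicator S (x i)))) (Metric.ball (x i) r) volume :=
        (integrableOn_const hfinB).add ((hψ.const_inner (x (i + 1) - x i)).const_mul 2)
      have hF2 : IntegrableOn (fun y : E d => (c i + 2 * ‖x (i + 1) - x i‖ * r) +
          2 * ‖x (i + 1) - x i‖ * ‖K.indicator S y - K.indicator S (x i)‖)
          (Metric.ball (x i) r) volume :=
        (integrableOn_const hfinB).add (hgB.const_mul _)
      -- step 1: rewrite the integrand on the ball
      have h1 : ∫ y in Metric.ball (x i) r,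
          (‖x (i + 1) - x i‖ ^ 2 + 2 * inner ℝ (x (i + 1) - x i) (y - S y)) =
          ∫ y in Metric.ball (x i) r, (c i + 2 * inner ℝ (x (i + 1) - x i)
            ((y - x i) - (K.indicator S y - K.indicator S (x i)))) := by
        refine setIntegral_congr_fun measurableSet_ball fun y hy => ?_
        have hyK : y ∈ K := hsubr i hy
        simp only [hc, Set.indicator_of_mem hyK, Set.indicator_of_mem hxi]
        rw [add_assoc, ← mul_add, ← inner_add_right]
        congr 3
        abel
      -- step 2: pointwise bound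
      have h2 : ∫ y in Metric.ball (x i) r, (c i + 2 * inner ℝ (x (i + 1) - x i)
            ((y - x i) - (K.indicator S y - K.indicator S (x i)))) ≤
          ∫ y in Metric.ball (x i) r, ((c i + 2 * ‖x (i + 1) - x i‖ * r) +
            2 * ‖x (i + 1) - x i‖ * ‖K.indicator S y - K.indicator S (x i)‖) := by
        refine setIntegral_mono_on hF1 hF2 measurableSet_ball fun y hy => ?_
        have hyr : ‖y - x i‖ < r := by
          rw [← dist_eq_norm]
          exact Metric.mem_ball.1 hy
        have h3 : inner ℝ (x (i + 1) - x i)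
            ((y - x i) - (K.indicator S y - K.indicator S (x i))) ≤
            ‖x (i + 1) - x i‖ * (‖y - x i‖ + ‖K.indicator S y - K.indicator S (x i)‖) :=
          (real_inner_le_norm _ _).trans
            (mul_le_mul_of_nonneg_left (norm_sub_le _ _) (norm_nonneg _))
        have h4 : ‖x (i + 1) - x i‖ * ‖y - x i‖ ≤ ‖x (i + 1) - x i‖ * r :=
          mul_le_mul_of_nonneg_left hyr.le (norm_nonneg _)
        nlinarith [h3, h4]
      -- step 3: compute the right-hand side
      have h3 : ∫ y in Metric.ball (x i) r, ((c i + 2 * ‖x (i + 1) - x i‖ * r) +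
            2 * ‖x (i + 1) - x i‖ * ‖K.indicator S y - K.indicator S (x i)‖) =
          V * (c i + 2 * ‖x (i + 1) - x i‖ * r) + 2 * ‖x (i + 1) - x i‖ *
            ∫ y in Metric.ball (x i) r, ‖K.indicator S y - K.indicator S (x i)‖ := by
        have hcB : IntegrableOn (fun _ : E d => c i + 2 * ‖x (i + 1) - x i‖ * r)
            (Metric.ball (x i) r) volume := integrableOn_const hfinB
        rw [integral_add hcB (hgB.const_mul _), setIntegral_const,
          integral_const_mul, hVi i, smul_eq_mul]
      -- step 4: from the ball to the closed ball, and the average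
      have h4 : ∫ y in Metric.ball (x i) r, ‖K.indicator S y - K.indicator S (x i)‖ ≤
          V * avg i r := by
        have h5 : ∫ y in Metric.ball (x i) r, ‖K.indicator S y - K.indicator S (x i)‖ ≤
            ∫ y in Metric.closedBall (x i) r, ‖K.indicator S y - K.indicator S (x i)‖ :=
          setIntegral_mono_set hgC (Eventually.of_forall fun y => norm_nonneg _)
            (Eventually.of_forall fun y hy => Metric.ball_subset_closedBall hy)
        have h6 : avg i r = V⁻¹ * ∫ y in Metric.closedBall (x i) r,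
            ‖K.indicator S y - K.indicator S (x i)‖ := by
          simp only [havg]
          rw [setAverage_eq, hVc i, smul_eq_mul]
        rw [h6, mul_inv_cancel_left₀ hVpos.ne']
        exact h5
      calc ∫ y in Metric.ball (x i) r,
            (‖x (i + 1) - x i‖ ^ 2 + 2 * inner ℝ (x (i + 1) - x i) (y - S y))
          ≤ V * (c i + 2 * ‖x (i + 1) - x i‖ * r) + 2 * ‖x (i + 1) - x i‖ *
            ∫ y in Metric.ball (x i) r, ‖K.indicator S y - K.indicator S (x i)‖ := by
            rw [h1, ← h3]
            exact h2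
        _ ≤ V * (c i + 2 * ‖x (i + 1) - x i‖ * r) + 2 * ‖x (i + 1) - x i‖ * (V * avg i r) := by
            have h7 : 0 ≤ 2 * ‖x (i + 1) - x i‖ := by positivity
            linarith [mul_le_mul_of_nonneg_left h4 h7]
        _ = V * (c i + 2 * ‖x (i + 1) - x i‖ * (r + avg i r)) := by ring
    have hsum : ∑ i, ∫ y in Metric.ball (x i) r,
        (‖x (i + 1) - x i‖ ^ 2 + 2 * inner ℝ (x (i + 1) - x i) (y - S y)) ≤
        V * (∑ i, c i + err r) := by
      calc ∑ i, ∫ y in Metric.ball (x i) r,
            (‖x (i + 1) - x i‖ ^ 2 + 2 * inner ℝ (x (i + 1) - x i) (y - S y))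
          ≤ ∑ i, V * (c i + 2 * ‖x (i + 1) - x i‖ * (r + avg i r)) :=
            Finset.sum_le_sum fun i _ => hbound i
        _ = V * (∑ i, c i + err r) := by
            simp only [herr]
            rw [← Finset.mul_sum, Finset.sum_add_distrib]
    exact nonneg_of_mul_nonneg_right (hsw.trans hsum) hVpos
  have hlim : Tendsto (fun r => ∑ i, c i + err r) (𝓝[>] 0) (𝓝 (∑ i, c i + 0)) :=
    tendsto_const_nhds.add herr0
  have hfinal : 0 ≤ ∑ i, c i := by
    have h1 := ge_of_tendsto hlim hev
    simpa using h1
  -- algebra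
  have hc_sum : ∑ i, c i = -2 * ∑ i, inner ℝ (S (x i)) (x (i + 1) - x i) := by
    have h1 : ∀ i, c i = (‖x (i + 1) - x i‖ ^ 2 + 2 * inner ℝ (x (i + 1) - x i) (x i)) -
        2 * inner ℝ (S (x i)) (x (i + 1) - x i) := by
      intro i
      simp only [hc]
      rw [inner_sub_right, real_inner_comm (S (x i))]
      ring
    simp only [h1]
    rw [Finset.sum_sub_distrib, sum_cyc_zero, ← Finset.mul_sum]
    ring
  linarith

/-- JOB B1b, with the swap inequality (JOB B1a) as a hypothesis: an optimal map which is bounded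
almost everywhere is cyclically monotone on a measurable set of full measure. -/
theorem exists_good_set_of_swap {d : ℕ} (K : Set (E d)) (hK : IsCompact K) (hconv : Convex ℝ K)
    (ν : Measure (E d)) (S : E d → E d)
    (hS : IsOptMap (unif K) ν S) (R : ℝ) (hR : ∀ᵐ x ∂(unif K), ‖S x‖ ≤ R)
    (hswap : ∀ (n : ℕ) (x : Fin (n + 1) → E d) (r : ℝ), 0 < r →
      Pairwise (fun i j => Disjoint (Metric.ball (x i) r) (Metric.ball (x j) r)) →
      (∀ i, Metric.ball (x i) r ⊆ K) →
      0 ≤ ∑ i, ∫ y in Metric.ball (x i) r,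
        (‖x (i + 1) - x i‖ ^ 2 + 2 * inner ℝ (x (i + 1) - x i) (y - S y))) :
    ∃ A : Set (E d), MeasurableSet A ∧ A ⊆ K ∧ unif K Aᶜ = 0 ∧ (∀ x ∈ A, ‖S x‖ ≤ R) ∧
      ∀ (n : ℕ) (x : Fin (n + 1) → E d), Function.Injective x → (∀ i, x i ∈ A) →
        ∑ i, inner ℝ (S (x i)) (x (i + 1) - x i) ≤ 0 := by
  have hKm : MeasurableSet K := hK.isClosed.measurableSet
  have hvK : (volume : Measure (E d)) K ≠ ⊤ := hK.measure_lt_top.ne
  have hc0 : ((volume : Measure (E d)) K)⁻¹ ≠ 0 := ENNReal.inv_ne_zero.2 hvK
  have hae : ∀ {p : E d → Prop}, (∀ᵐ x ∂((volume : Measure (E d)).restrict K), p x) →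
      ∀ᵐ x ∂(unif K), p x := by
    intro p hp
    unfold unif
    exact Measure.ae_smul_measure hp _
  have hR' : ∀ᵐ x ∂((volume : Measure (E d)).restrict K), ‖S x‖ ≤ R := by
    unfold unif at hR
    exact (Measure.ae_ennreal_smul_measure_iff hc0).1 hR
  have hSint : Integrable (K.indicator S) (volume : Measure (E d)) := by
    rw [integrable_indicator_iff hKm]
    exact Measure.integrableOn_of_bounded hvK hS.1.aestronglyMeasurable hR'
  -- Lebesgue points
  have hLeb := IsUnifLocDoublingMeasure.ae_tendsto_average_norm_sub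
    (μ := (volume : Measure (E d))) hSint.locallyIntegrable 1
  have hL : ∀ᵐ x ∂(volume : Measure (E d)),
      Tendsto (fun r : ℝ => ⨍ y in Metric.closedBall x r,
        ‖K.indicator S y - K.indicator S x‖) (𝓝[>] 0) (𝓝 0) := by
    filter_upwards [hLeb] with x hx
    refine hx (fun _ => x) (fun r => r) tendsto_id ?_
    filter_upwards [self_mem_nhdsWithin] with r hr
    rw [one_mul]
    exact Metric.mem_closedBall_self (le_of_lt hr)
  have hG : ∀ᵐ x ∂(unif K), x ∈ interior K ∧ ‖S x‖ ≤ R ∧
      Tendsto (fun r : ℝ => ⨍ y in Metric.closedBall x r,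
        ‖K.indicator S y - K.indicator S x‖) (𝓝[>] 0) (𝓝 0) := by
    have h1 : ∀ᵐ x ∂((volume : Measure (E d)).restrict K), x ∈ interior K := by
      have hfr : ∀ᵐ x ∂(volume : Measure (E d)), x ∉ frontier K := by
        rw [ae_iff]
        simpa using hconv.addHaar_frontier volume
      filter_upwards [ae_restrict_mem hKm, ae_restrict_of_ae hfr] with x hxK hxf
      by_contra hni
      exact hxf ⟨subset_closure hxK, hni⟩
    filter_upwards [hae h1, hR, hae (ae_restrict_of_ae hL)] with x a b c
    exact ⟨a, b, c⟩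
  rw [ae_iff] at hG
  refine ⟨(toMeasurable (unif K) {x | ¬ (x ∈ interior K ∧ ‖S x‖ ≤ R ∧
      Tendsto (fun r : ℝ => ⨍ y in Metric.closedBall x r,
        ‖K.indicator S y - K.indicator S x‖) (𝓝[>] 0) (𝓝 0))})ᶜ,
    (measurableSet_toMeasurable _ _).compl, ?_, ?_, ?_, ?_⟩
  · intro x hx
    by_contra hxK
    exact hx (subset_toMeasurable _ _ (fun h => hxK (interior_subset h.1)))
  · rw [compl_compl, measure_toMeasurable]
    exact hG
  · intro x hx
    by_contra hxR
    exact hx (subset_toMeasurable _ _ (fun h => hxR h.2.1))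
  · intro n x hxinj hxA
    have hxG : ∀ i, x i ∈ interior K ∧ ‖S (x i)‖ ≤ R ∧
        Tendsto (fun r : ℝ => ⨍ y in Metric.closedBall (x i) r,
          ‖K.indicator S y - K.indicator S (x i)‖) (𝓝[>] 0) (𝓝 0) := by
      intro i
      by_contra h
      exact hxA i (subset_toMeasurable _ _ h)
    exact cyclic_of_lebesgue K S hSint hswap n x hxinj (fun i => (hxG i).1)
      (fun i => (hxG i).2.2)

end Vale.Agent.Lib.P074
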